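import Vale.Agent.P057T.Cfg.Bas
import Vale.Agent.P057T.Cfg.Cp

/-!
New stages on top of a tower, and the mixed jet tower: old jets over `V`, new jets over `V1`.
-/

open MvPolynomial Finset
open scoped Real

namespace Vale.Agent.P057T.Mix

open Vale.Agent.P057T.Eq Vale.Agent.P057T.Cfg

noncomputable section

/-- a new stage: `H` carries groups, weights, matrices and exact variables (`H.q` is not used) -/
structure NS (ι κ : Type) where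
  H : GT κ
  q : κ → MvPolynomial (ι ⊕ κ) ℝ
  p : κ → MvPolynomial (ι ⊕ κ) ℝ
  sg : κ → ℝ

variable {ι κ V V1 : Type} [Fintype ι] [DecidableEq ι] [Fintype κ] [DecidableEq κ]
  [Fintype V] [DecidableEq V] [Fintype V1] [DecidableEq V1]

/-- the extended tower -/
def ext (G : GT ι) (N : NS ι κ) : GT (ι ⊕ κ) where
  g := Sum.elim G.g N.H.g
  w := Sum.elim G.w N.H.w
  A := Matrix.fromBlocks G.A 0 0 N.H.A
  B := Matrix.fromBlocks G.B 0 0 N.H.B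
  q := Sum.elim (fun a => rename Sum.inl (G.q a)) N.q
  ex := G.ex.disjSum N.H.ex

/-- its analytic data, new active set `U` -/
def extT (T : AT ι) (N : NS ι κ) (U : Finset κ) : AT (ι ⊕ κ) where
  U := T.U.disjSum U
  p := Sum.elim (fun a => rename Sum.inl (T.p a)) N.p
  sg := Sum.elim T.sg N.sg

/-- the polynomial point over `V1`: old jets are substituted, new jets are free -/
def mz {R : Type} [CommRing R] (G : GT ι) (N : NS ι κ) (S : V → V1 → ℤ)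
    (z : JI G.w V ⊕ JI N.H.w V1 → R) : JI (ext G N).w V1 → R := fun y =>
  coeff y.1.2 (Sum.elim (fun a => sb R S (pl (fun x => z (Sum.inl x)) a))
    (fun b => pl (fun x => z (Sum.inr x)) b) y.1.1)

/-- the new stage of the mixed tower -/
def mix (G : GT ι) (T : AT ι) (N : NS ι κ) (S : V → V1 → ℤ) (e1 : V1 → ℤ) (ω1 : (V1 →₀ ℕ) → ℝ) :
    NS (JI G.w V) (JI N.H.w V1) where
  H := jet N.H V1 ω1
  q := fun y => coeff y.1.2 (aeval (pl (mz G N S X)) (N.q y.1.1))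
  p := fun y => C (ω1 y.1.2) *
    coeff y.1.2 (hg (ext G N) (extT T N univ) e1 (mz G N S X) (Sum.inr y.1.1))
  sg := fun y => N.sg y.1.1

/-- the mixed tower -/
def MG (G : GT ι) (T : AT ι) (N : NS ι κ) (S : V → V1 → ℤ) (e1 : V1 → ℤ) (ω : (V →₀ ℕ) → ℝ)
    (ω1 : (V1 →₀ ℕ) → ℝ) : GT (JI G.w V ⊕ JI N.H.w V1) := ext (jet G V ω) (mix G T N S e1 ω1)

/-- its analytic data: all old jets, the new jets of `U` -/
def MA (G : GT ι) (T : AT ι) (N : NS ι κ) (S : V → V1 → ℤ) (e : V → ℤ) (e1 : V1 → ℤ)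
    (ω : (V →₀ ℕ) → ℝ) (ω1 : (V1 →₀ ℕ) → ℝ) (U : Finset (JI N.H.w V1)) :
    AT (JI G.w V ⊕ JI N.H.w V1) := extT (jat G T e ω univ) (mix G T N S e1 ω1) U

/-- the chart of a new jet -/
def nv (G : GT ι) (T : AT ι) (N : NS ι κ) (S : V → V1 → ℤ) (e1 : V1 → ℤ) (ω1 : (V1 →₀ ℕ) → ℝ)
    (z : JI G.w V ⊕ JI N.H.w V1 → ℤ) (y : JI N.H.w V1) : ℝ :=
  ω1 y.1.2 * coeff y.1.2 (tp (ext G N) (extT T N univ) e1 (cz (mz G N S z)) (Sum.inr y.1.1))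

/-- the row `x` is generic for the short dual vectors of the new jets -/
def Gn (H : GT κ) (ω1 : (V1 →₀ ℕ) → ℝ) (h : ℝ) (x : V1 → ℤ) : Prop :=
  ∀ k : JI H.w V1 → ℤ, ∑ y, |∑ y', (k y' : ℝ) * (jet H V1 ω1).B y' y| ≤ h → ∀ y0, k y0 ≠ 0 →
    ∑ y : JI H.w V1, (if y.1.1 = y0.1.1 then k y * coeff y.1.2 (le ℤ x ^ H.w y.1.1) else 0) ≠ 0

/-! ### Rows -/

/-- algebra of extensions -/
def EXT : Prop := ∀ (ι κ : Type) [Fintype ι] [DecidableEq ι] [Fintype κ] [DecidableEq κ]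
  (G : GT ι) (N : NS ι κ),
    (∀ a, (ext G N).th (Sum.inl a) = rename Sum.inl (G.th a)) ∧
    (∀ b, (ext G N).th (Sum.inr b) = ∑ c, C (N.H.A b c) * (X (Sum.inr c) - N.q c)) ∧
    (∀ WW, (ext G N).Wd WW ↔ G.Wd WW ∧ N.H.Wd WW) ∧
    (∀ g η, 0 ≤ η → ((ext G N).Small g η ↔ G.Small g η ∧ N.H.Small g η)) ∧
    (∀ (T : AT ι) (U : Finset κ), Cp.Mn (ext G N) (extT T N U) = Cp.Mn G T * N.H.mn N.sg U) ∧
    (∀ (T : AT ι) (U : Finset κ) (z : ι ⊕ κ → ℤ), (ext G N).nu (extT T N U) z =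
      G.nu T (fun a => z (Sum.inl a)) * Real.exp (-π * ∑ b ∈ U,
        (N.sg b * eval (cz z) ((ext G N).ch (extT T N U) (Sum.inr b))) ^ 2)) ∧
    ∀ s, (ext G N).Ok s → G.Ok s ∧ ∀ (T : AT ι) (U : Finset κ) (P : ℝ),
      (ext G N).AOk (extT T N U) P → G.AOk T P

/-- the mixed tower is a tower -/
def MOK : Prop := ∀ (s : ℕ) (ι κ V V1 : Type) [Fintype ι] [DecidableEq ι] [Fintype κ] [DecidableEq κ]
  [Fintype V] [DecidableEq V] [Fintype V1] [DecidableEq V1] (G : GT ι) (T : AT ι) (N : NS ι κ)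
  (S : V → V1 → ℤ) (e : V → ℤ) (e1 : V1 → ℤ) (ω : (V →₀ ℕ) → ℝ) (ω1 : (V1 →₀ ℕ) → ℝ),
    (ext G N).Ok s → N.H.Ok s → (∀ ν, 0 < ω ν) → (∀ ν, 0 < ω1 ν) →
    (MG G T N S e1 ω ω1).Ok s ∧
    (∀ y, (MG G T N S e1 ω ω1).th (Sum.inr y) = C (ω1 y.1.2) *
      coeff y.1.2 (aeval (pl (mz G N S X)) ((ext G N).th (Sum.inr y.1.1)))) ∧
    (∀ WW Z, (ext G N).Wd WW → 0 ≤ Z → (∀ ν, ω ν ≤ Real.exp Z) → (∀ ν, ω1 ν ≤ Real.exp Z) →
      (MG G T N S e1 ω ω1).Wd fun g => WW g + Z) ∧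
    (∀ U z y, eval (cz z) ((MG G T N S e1 ω ω1).ch (MA G T N S e e1 ω ω1 U) (Sum.inr y)) =
      nv G T N S e1 ω1 z y) ∧
    (∀ U z, (MG G T N S e1 ω ω1).nu (MA G T N S e e1 ω ω1 U) z =
      ww (jet G V ω) (jat G T e ω univ) 1 0 (fun x => z (Sum.inl x)) *
        Real.exp (-π * ∑ y ∈ U, (N.sg y.1.1 * nv G T N S e1 ω1 z y) ^ 2)) ∧
    (∀ U, Cp.Mn (MG G T N S e1 ω ω1) (MA G T N S e e1 ω ω1 U) =
      (jet G V ω).mn (fun x => T.sg x.1.1) univ * (jet N.H V1 ω1).mn (fun y => N.sg y.1.1) U) ∧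
    ∀ (P : ℝ) (Δ : (V1 →₀ ℕ) → Prop) [DecidablePred Δ], T.U = univ →
      (ext G N).AOk (extT T N univ) P → Dn Δ →
      (MG G T N S e1 ω ω1).AOk (MA G T N S e e1 ω ω1 (UD N.H.w Δ)) P

/-- the mixed tower is regular if one row of the frame is generic -/
def MRG : Prop := ∀ (s : ℕ) (ι κ V V1 : Type) [Fintype ι] [DecidableEq ι] [Fintype κ] [DecidableEq κ]
  [Fintype V] [DecidableEq V] [Fintype V1] [DecidableEq V1] (G : GT ι) (T : AT ι) (N : NS ι κ)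
  (S : V → V1 → ℤ) (e1 : V1 → ℤ) (ω : (V →₀ ℕ) → ℝ) (ω1 : (V1 →₀ ℕ) → ℝ) (WW : ℕ → ℝ)
  (c Y Z W0 : ℝ) (v0 : V), (ext G N).Ok s → N.H.Ok s → (ext G N).Wd WW → 1 ≤ c → 1 ≤ Y → 0 ≤ Z →
    (∀ ν, 0 < ω ν ∧ ω ν ≤ Real.exp Z) → (∀ ν, 0 < ω1 ν ∧ ω1 ν ≤ Real.exp Z) →
    (∀ v v1, |(S v v1 : ℝ)| ≤ Real.exp Z) → (s : ℝ) ≤ Real.exp Z →
    (Fintype.card V : ℝ) ≤ Real.exp Z → (Fintype.card V1 : ℝ) ≤ Real.exp Z →
    (∀ b, WW (N.H.g b) ≤ W0) → Gn N.H ω1 (Real.exp (c * (Y + W0 + Z))) (S v0) →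
    Rs (ext G N) WW c (Y + (4 * s ^ 2 + s + 2) * Z) s →
    Rs (MG G T N S e1 ω ω1) (fun g => WW g + Z) c Y s

open Classical in
/-- few rows are not generic -/
def GENM : Prop := ∀ (s : ℕ) (κ V1 : Type) [Fintype κ] [DecidableEq κ] [Fintype V1] [DecidableEq V1]
  (H : GT κ) (ω1 : (V1 →₀ ℕ) → ℝ) (WW : ℕ → ℝ) (h W0 Z L : ℝ) (X : V1 → Finset ℤ), H.Ok s →
    H.Wd WW → 0 ≤ h → 0 ≤ Z → (∀ ν, 0 < ω1 ν ∧ ω1 ν ≤ Real.exp Z) → (∀ b, WW (H.g b) ≤ W0) → 0 < L →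
    (∀ v, L ≤ (X v).card) →
    (((Fintype.piFinset X).filter fun x => ¬ Gn H ω1 h x).card : ℝ) ≤
      (2 * h * Real.exp (W0 + Z) + 1) ^ Fintype.card (JI H.w V1) * Fintype.card κ * (s / L) *
        ∏ v, ((X v).card : ℝ)

end

end Vale.Agent.P057T.Mix
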